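import Crest.Agent.PVc.Lib.PNT.Fejer

-- ▼ part PVc/Lib/PNT/Tauber
section

/-! The Tauberian step and the Wiener-Ikehara theorem. -/

set_option autoImplicit false

open MeasureTheory Set Filter Topology

namespace Crest.Agent.Lib.PNT

/-- Tail mass of the Fejer kernel. -/
noncomputable def tl (R : ℝ) : ℝ := ∫ v, ({v : ℝ | R < |v|}.indicator fej) v

theorem mean_lower (φ : ℝ → ℝ) (hm : Measurable φ) {B a T R : ℝ} (hB : ∀ u, |φ u| ≤ B)
    (ha : |a| ≤ B) (h : ∀ u, |T - u| ≤ R → a ≤ φ u) :
    a * (∫ v, fej v) - 2 * B * tl R ≤ ∫ u, φ u * fej (T - u) := by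
  have hms : MeasurableSet {v : ℝ | R < |v|} :=
    measurableSet_lt measurable_const continuous_abs.measurable
  have hi : Integrable ({v : ℝ | R < |v|}.indicator fej) := integrable_fej.indicator hms
  rw [← integral_sub_left_eq_self (fun u => φ u * fej (T - u)) volume T]
  simp only [sub_sub_cancel]
  rw [tl, ← integral_const_mul, ← integral_const_mul,
    ← integral_sub (integrable_fej.const_mul _) (hi.const_mul _)]
  refine integral_mono ((integrable_fej.const_mul _).sub (hi.const_mul _)) ?_ fun w => ?_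
  · refine (integrable_fej.const_mul B).mono' ?_ (Eventually.of_forall fun w => ?_)
    · refine Measurable.aestronglyMeasurable ?_
      have := continuous_fej.measurable
      fun_prop
    · rw [Real.norm_eq_abs, abs_mul, abs_of_nonneg (fej_nonneg w)]
      exact mul_le_mul_of_nonneg_right (hB _) (fej_nonneg w)
  · have h0 := fej_nonneg w
    by_cases hw : R < |w|
    · have : w ∈ {v : ℝ | R < |v|} := hw
      simp only [indicator_of_mem this]
      have h1 := (abs_le.1 (hB (T - w))).1
      have h2 := (abs_le.1 ha).2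
      nlinarith
    · have : w ∉ {v : ℝ | R < |v|} := hw
      simp only [indicator_of_notMem this, mul_zero, sub_zero]
      refine mul_le_mul_of_nonneg_right (h _ ?_) h0
      simpa using hw

/-- The Tauberian step for a bounded function `h` with `h u * exp u` nondecreasing. -/
theorem tauberPV (h : ℝ → ℝ) (hm : Measurable h) {C A : ℝ} (h0 : ∀ u, 0 ≤ h u) (hC : ∀ u, h u ≤ C)
    (hmono : Monotone fun u => h u * Real.exp u)
    (hconv : ∀ l : ℝ, 0 < l →
      Tendsto (fun T : ℝ => ∫ u in Ioi (0 : ℝ), (h (u / l) - A) * fej (T - u)) atTop (𝓝 0)) :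
    Tendsto h atTop (𝓝 A) := by
  have hC0 : 0 ≤ C := (h0 0).trans (hC 0)
  set c := ∫ v, fej v with hc
  have hcpos : 0 < c := integral_fej_pos
  have key : ∀ δ : ℝ, 0 < δ → δ ≤ 1 → ∀ᶠ T in atTop,
      h T * Real.exp (-(2 * δ)) ≤ A + δ ∧ A - δ ≤ h T * Real.exp (2 * δ) := by
    intro δ hδ hδ1
    set B := C * Real.exp 2 + |A| with hB
    have hB0 : 0 ≤ B := by positivity
    have htl : Tendsto (fun R => 2 * B * tl R) atTop (𝓝 0) := by
      simpa [tl] using fej_tail.const_mul (2 * B)
    obtain ⟨R, hR1, hR0⟩ := ((htl.eventually (gt_mem_nhds (show (0 : ℝ) < δ * c / 2 by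
      positivity))).and (eventually_gt_atTop 0)).exists
    set l := R / δ with hl
    have hl0 : 0 < l := by positivity
    have hRl : R = l * δ := by rw [hl]; field_simp
    set φ : ℝ → ℝ := (Ioi (0 : ℝ)).indicator fun u => h (u / l) - A with hφ
    have hφm : Measurable φ := Measurable.indicator (by fun_prop) measurableSet_Ioi
    have he2 : 1 ≤ Real.exp 2 := Real.one_le_exp (by norm_num)
    have hbd : ∀ x : ℝ, 0 ≤ x → x ≤ C * Real.exp 2 → |x - A| ≤ B := by
      intro x hx0 hx1
      have := abs_sub x A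
      rw [abs_of_nonneg hx0] at this
      linarith
    have hφB : ∀ u, |φ u| ≤ B := by
      intro u
      by_cases hu : u ∈ Ioi (0 : ℝ)
      · simp only [hφ, indicator_of_mem hu]
        exact hbd _ (h0 _) ((hC _).trans (by nlinarith))
      · simp only [hφ, indicator_of_notMem hu, abs_zero, hB0]
    have hJ : Tendsto (fun T : ℝ => ∫ u, φ u * fej (T - u)) atTop (𝓝 0) := by
      refine (hconv l hl0).congr fun T => ?_
      rw [← integral_indicator measurableSet_Ioi]
      refine integral_congr_ae (Eventually.of_forall fun u => ?_)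
      by_cases hu : u ∈ Ioi (0 : ℝ)
      · simp only [hφ, indicator_of_mem hu]
      · simp only [hφ, indicator_of_notMem hu, zero_mul]
    have t1 : Tendsto (fun T : ℝ => l * (T + δ)) atTop atTop :=
      (tendsto_atTop_add_const_right _ δ tendsto_id).const_mul_atTop hl0
    have t2 : Tendsto (fun T : ℝ => l * (T + -δ)) atTop atTop :=
      (tendsto_atTop_add_const_right _ (-δ) tendsto_id).const_mul_atTop hl0
    have e1 := (hJ.comp t1).eventually (gt_mem_nhds (show (0 : ℝ) < δ * c / 2 by positivity))
    have e2 := (hJ.comp t2).eventually (lt_mem_nhds (show -(δ * c / 2) < (0 : ℝ) by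
      have : 0 < δ * c / 2 := by positivity
      linarith))
    filter_upwards [e1, e2, eventually_gt_atTop (2 * δ)] with T hT1 hT2 hT
    simp only [Function.comp] at hT1 hT2
    have hx1 : Real.exp (-(2 * δ)) ≤ Real.exp 2 := Real.exp_le_exp.2 (by linarith)
    have hx2 : Real.exp (2 * δ) ≤ Real.exp 2 := Real.exp_le_exp.2 (by linarith)
    constructor
    · have := mean_lower φ hφm (a := h T * Real.exp (-(2 * δ)) - A) (T := l * (T + δ)) (R := R)
        hφB (hbd _ (mul_nonneg (h0 _) (Real.exp_pos _).le)
          (mul_le_mul (hC _) hx1 (Real.exp_pos _).le hC0)) ?_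
      · rw [← hc] at this
        have h5 : (h T * Real.exp (-(2 * δ)) - A) * c ≤ δ * c := by linarith
        have := le_of_mul_le_mul_right h5 hcpos
        linarith
      · intro u hu
        obtain ⟨hu1, hu2⟩ := abs_le.1 hu
        have ha : T ≤ u / l := by rw [le_div_iff₀ hl0]; nlinarith
        have hb : u / l ≤ T + 2 * δ := by rw [div_le_iff₀ hl0]; nlinarith
        have hu0 : u ∈ Ioi (0 : ℝ) := by
          have : 0 < u / l := by linarith
          exact (div_pos_iff_of_pos_right hl0).1 this
        simp only [hφ, indicator_of_mem hu0]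
        have h6 : h T * Real.exp T ≤ h (u / l) * Real.exp (u / l) := hmono ha
        have h7 : h (u / l) * Real.exp (u / l) ≤ h (u / l) * Real.exp (T + 2 * δ) :=
          mul_le_mul_of_nonneg_left (Real.exp_le_exp.2 hb) (h0 _)
        have h8 : Real.exp T = Real.exp (-(2 * δ)) * Real.exp (T + 2 * δ) := by
          rw [← Real.exp_add]; congr 1; ring
        have h9 : h T * Real.exp (-(2 * δ)) * Real.exp (T + 2 * δ)
            ≤ h (u / l) * Real.exp (T + 2 * δ) := by
          rw [mul_assoc, ← h8]; linarith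
        have := le_of_mul_le_mul_right h9 (Real.exp_pos _)
        linarith
    · have := mean_lower (fun u => -φ u) hφm.neg (a := A - h T * Real.exp (2 * δ))
        (T := l * (T + -δ)) (R := R) (B := B) (fun u => by rw [abs_neg]; exact hφB u)
        (by
          rw [abs_sub_comm]
          exact hbd _ (mul_nonneg (h0 _) (Real.exp_pos _).le)
            (mul_le_mul (hC _) hx2 (Real.exp_pos _).le hC0)) ?_
      · rw [← hc] at this
        simp only [neg_mul, integral_neg] at this
        have h5 : (A - h T * Real.exp (2 * δ)) * c ≤ δ * c := by linarith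
        have := le_of_mul_le_mul_right h5 hcpos
        linarith
      · intro u hu
        obtain ⟨hu1, hu2⟩ := abs_le.1 hu
        have ha : T - 2 * δ ≤ u / l := by rw [le_div_iff₀ hl0]; nlinarith
        have hb : u / l ≤ T := by rw [div_le_iff₀ hl0]; nlinarith
        have hu0 : u ∈ Ioi (0 : ℝ) := by
          have : 0 < u / l := by linarith
          exact (div_pos_iff_of_pos_right hl0).1 this
        simp only [hφ, indicator_of_mem hu0]
        have h6 : h (u / l) * Real.exp (u / l) ≤ h T * Real.exp T := hmono hb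
        have h7 : h (u / l) * Real.exp (T - 2 * δ) ≤ h (u / l) * Real.exp (u / l) :=
          mul_le_mul_of_nonneg_left (Real.exp_le_exp.2 ha) (h0 _)
        have h8 : Real.exp T = Real.exp (2 * δ) * Real.exp (T - 2 * δ) := by
          rw [← Real.exp_add]; congr 1; ring
        have h9 : h (u / l) * Real.exp (T - 2 * δ)
            ≤ h T * Real.exp (2 * δ) * Real.exp (T - 2 * δ) := by
          rw [mul_assoc, ← h8]; linarith
        have := le_of_mul_le_mul_right h9 (Real.exp_pos _)
        linarith
  have small : ∀ᶠ δ in 𝓝[>] (0 : ℝ), 0 < δ ∧ δ ≤ 1 := by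
    filter_upwards [Ioc_mem_nhdsGT (zero_lt_one' ℝ)] with δ hδ using hδ
  refine tendsto_order.2 ⟨fun a ha => ?_, fun a ha => ?_⟩
  · have hcont : Tendsto (fun δ : ℝ => (A - δ) * Real.exp (-(2 * δ))) (𝓝[>] 0) (𝓝 A) := by
      have : Continuous fun δ : ℝ => (A - δ) * Real.exp (-(2 * δ)) := by fun_prop
      simpa using (this.tendsto 0).mono_left (nhdsWithin_le_nhds (s := Ioi 0))
    obtain ⟨δ, h1, h2, h3⟩ := ((hcont.eventually (lt_mem_nhds ha)).and small).exists
    filter_upwards [key δ h2 h3] with T hT
    have h4 := mul_le_mul_of_nonneg_right hT.2 (Real.exp_pos (-(2 * δ))).le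
    rw [mul_assoc, ← Real.exp_add] at h4
    simp only [add_neg_cancel, Real.exp_zero, mul_one] at h4
    linarith
  · have hcont : Tendsto (fun δ : ℝ => (A + δ) * Real.exp (2 * δ)) (𝓝[>] 0) (𝓝 A) := by
      have : Continuous fun δ : ℝ => (A + δ) * Real.exp (2 * δ) := by fun_prop
      simpa using (this.tendsto 0).mono_left (nhdsWithin_le_nhds (s := Ioi 0))
    obtain ⟨δ, h1, h2, h3⟩ := ((hcont.eventually (gt_mem_nhds ha)).and small).exists
    filter_upwards [key δ h2 h3] with T hT
    have h4 := mul_le_mul_of_nonneg_right hT.1 (Real.exp_pos (2 * δ)).le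
    rw [mul_assoc, ← Real.exp_add] at h4
    simp only [neg_add_cancel, Real.exp_zero, mul_one] at h4
    linarith

/-- **Wiener-Ikehara** for nonnegative coefficients with a Chebyshev bound. -/
theorem wienerIkehara (a : ℕ → ℝ) (ha : ∀ n, 0 ≤ a n) {C : ℝ}
    (hC : ∀ n : ℕ, ∑ k ∈ Finset.Icc 1 n, a k ≤ C * n) (A : ℝ) (G : ℂ → ℂ)
    (hG : ContinuousOn G {s | 1 ≤ s.re})
    (hGL : ∀ s : ℂ, 1 < s.re → G s = LSeries (fun n => (a n : ℂ)) s - A / (s - 1)) :
    Tendsto (fun x : ℝ => (∑ k ∈ Finset.Icc 1 ⌊x⌋₊, a k) / x) atTop (𝓝 A) := by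
  set S : ℝ → ℝ := fun x => ∑ k ∈ Finset.Icc 1 ⌊x⌋₊, a k with hS
  have hC0 : 0 ≤ C := by simpa using (ha 1).trans (by simpa using hC 1)
  have hSmono : Monotone S := fun x y hxy =>
    Finset.sum_le_sum_of_subset_of_nonneg (Finset.Icc_subset_Icc_right (Nat.floor_mono hxy))
      fun i _ _ => ha i
  have hS0 : ∀ x, 0 ≤ S x := fun x => Finset.sum_nonneg fun i _ => ha i
  have hSC : ∀ x, 0 ≤ x → S x ≤ C * x := fun x hx =>
    (hC _).trans (mul_le_mul_of_nonneg_left (Nat.floor_le hx) hC0)
  set h : ℝ → ℝ := fun u => S (Real.exp u) / Real.exp u with hh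
  have hm : Measurable h := by
    have := hSmono.measurable
    fun_prop
  have h0 : ∀ u, 0 ≤ h u := fun u => div_nonneg (hS0 _) (Real.exp_pos _).le
  have hhC : ∀ u, h u ≤ C := fun u => by
    rw [hh, div_le_iff₀ (Real.exp_pos _)]; exact hSC _ (Real.exp_pos _).le
  have hmono : Monotone fun u => h u * Real.exp u := by
    intro u v huv
    simp only [hh, div_mul_cancel₀ _ (Real.exp_pos _).ne']
    exact hSmono (Real.exp_le_exp.2 huv)
  -- the Laplace transform
  have hO : (fun n => ∑ k ∈ Finset.Icc 1 n, a k) =O[atTop] fun n : ℕ => (n : ℝ) ^ (1 : ℝ) := by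
    refine Asymptotics.IsBigO.of_bound C (Eventually.of_forall fun n => ?_)
    rw [Real.rpow_one, Real.norm_eq_abs, Real.norm_eq_abs,
      abs_of_nonneg (Finset.sum_nonneg fun i _ => ha i), abs_of_nonneg (Nat.cast_nonneg n)]
    exact hC n
  have lap : ∀ w : ℂ, 0 < w.re →
      ∫ v in Ioi (0 : ℝ), ((h v - A : ℝ) : ℂ) * Complex.exp (-(w * v))
        = (G (1 + w) - A) / (1 + w) := by
    intro w hw
    have hw0 : w ≠ 0 := fun h => by simp [h] at hw
    have hw1 : 1 + w ≠ 0 := fun h => by
      have := congrArg Complex.re h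
      simp at this; linarith
    have hL := LSeries_eq_mul_integral_of_nonneg a zero_le_one (s := 1 + w) (by simpa using hw)
      hO ha
    have himg : Ioi (1 : ℝ) = Real.exp '' Ioi 0 := by
      rw [Real.image_exp_Ioi]; simp
    rw [himg, integral_image_eq_integral_abs_deriv_smul measurableSet_Ioi
      (fun x _ => (Real.hasDerivAt_exp x).hasDerivWithinAt) Real.exp_injective.injOn] at hL
    have e1 : ∫ v in Ioi (0 : ℝ), |Real.exp v| • ((∑ k ∈ Finset.Icc 1 ⌊Real.exp v⌋₊, (a k : ℂ)) *
          ((Real.exp v : ℝ) : ℂ) ^ (-(1 + w + 1)))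
        = ∫ v in Ioi (0 : ℝ), (h v : ℂ) * Complex.exp (-(w * v)) := by
      refine integral_congr_ae (Eventually.of_forall fun v => ?_)
      simp only [hh, hS, abs_of_pos (Real.exp_pos v), Complex.real_smul]
      rw [Complex.cpow_def_of_ne_zero (by exact_mod_cast (Real.exp_pos v).ne'),
        ← Complex.ofReal_log (Real.exp_pos v).le, Real.log_exp]
      have e2 : Complex.exp (v * -(1 + w + 1)) = Complex.exp (-(w * v)) *
          ((Complex.exp v)⁻¹ * (Complex.exp v)⁻¹) := by
        rw [← Complex.exp_neg, ← Complex.exp_add, ← Complex.exp_add]; congr 1; ring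
      have := Complex.exp_ne_zero v
      rw [e2]
      push_cast
      field_simp
    rw [e1] at hL
    have hexp : IntegrableOn (fun v : ℝ => Complex.exp (-w * v)) (Ioi 0) :=
      integrableOn_exp_mul_complex_Ioi (by simpa using hw) 0
    have hi1 : IntegrableOn (fun v : ℝ => (h v : ℂ) * Complex.exp (-(w * v))) (Ioi 0) := by
      refine (hexp.norm.const_mul C).mono' (Measurable.aestronglyMeasurable (by fun_prop))
        (Eventually.of_forall fun v => ?_)
      rw [norm_mul, Complex.norm_real, Real.norm_eq_abs, abs_of_nonneg (h0 v), neg_mul]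
      exact mul_le_mul_of_nonneg_right (hhC v) (norm_nonneg _)
    have e3 : ∫ v in Ioi (0 : ℝ), ((h v - A : ℝ) : ℂ) * Complex.exp (-(w * v))
        = (∫ v in Ioi (0 : ℝ), (h v : ℂ) * Complex.exp (-(w * v)))
          - A * ∫ v in Ioi (0 : ℝ), Complex.exp (-w * v) := by
      rw [← integral_const_mul, ← integral_sub hi1 (hexp.const_mul _)]
      refine integral_congr_ae (Eventually.of_forall fun v => ?_)
      simp only [neg_mul]
      push_cast
      ring
    rw [e3, integral_exp_mul_complex_Ioi (by simpa using hw), hGL _ (by simpa using hw), hL]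
    simp only [Complex.ofReal_zero, mul_zero, Complex.exp_zero, add_sub_cancel_left]
    field_simp
    ring
  have hlim : Tendsto h atTop (𝓝 A) := by
    refine tauberPV h hm h0 hhC hmono fun l hl => ?_
    refine conv_tendsto (fun u => h (u / l) - A) (by fun_prop) (C + |A|) (fun u => ?_)
      (fun z => l * ((G (1 + l * z) - A) / (1 + l * z))) ?_ fun z hz => ?_
    · have := abs_sub (h (u / l)) A
      rw [abs_of_nonneg (h0 _)] at this
      linarith [hhC (u / l)]
    · refine continuousOn_const.mul (ContinuousOn.div ?_ (by fun_prop) fun z hz h => ?_)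
      · refine ContinuousOn.sub ?_ continuousOn_const
        refine hG.comp (by fun_prop) fun z hz => ?_
        have hz' : 0 ≤ z.re := hz
        have : 0 ≤ l * z.re := by positivity
        simpa using this
      · have hz' : 0 ≤ z.re := hz
        have h1 : 0 ≤ l * z.re := by positivity
        have := congrArg Complex.re h
        simp at this; linarith
    · have h1 : 0 < ((l : ℂ) * z).re := by simpa using mul_pos hl hz
      rw [← lap _ h1]
      have := integral_comp_mul_left_Ioi
        (fun u : ℝ => ((h (u / l) - A : ℝ) : ℂ) * Complex.exp (-(z * u))) 0 hl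
      simp only [mul_zero, Complex.real_smul] at this
      have hl' : (l : ℂ) ≠ 0 := by exact_mod_cast hl.ne'
      have e4 : ∫ v in Ioi (0 : ℝ), ((h v - A : ℝ) : ℂ) * Complex.exp (-(l * z * v))
          = ∫ x in Ioi (0 : ℝ), ((h (l * x / l) - A : ℝ) : ℂ) *
            Complex.exp (-(z * ((l * x : ℝ) : ℂ))) := by
        refine integral_congr_ae (Eventually.of_forall fun v => ?_)
        simp only [mul_div_cancel_left₀ _ hl.ne']
        congr 2
        push_cast
        ring
      rw [e4, this]
      push_cast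
      field_simp
  refine (hlim.comp Real.tendsto_log_atTop).congr' ?_
  filter_upwards [eventually_gt_atTop 0] with x hx
  simp only [Function.comp, hh, Real.exp_log hx, hS]

end Crest.Agent.Lib.PNT
-- keep-prune
end

-- ▼ part PVc/Lib/PNT/Main

/-! The prime number theorem, also in arithmetic progressions. -/

set_option autoImplicit false

open Set Filter Topology
open ArithmeticFunction ArithmeticFunction.vonMangoldt

namespace Crest.Agent.Lib.PNT

theorem psi_eq_Icc_one (x : ℝ) : Chebyshev.psi x = ∑ k ∈ Finset.Icc 1 ⌊x⌋₊, vonMangoldt k := by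
  unfold Chebyshev.psi
  rfl

/-- Prime number theorem in arithmetic progressions, von Mangoldt form. -/
theorem psiAP_tendsto {q : ℕ} [NeZero q] {a : ZMod q} (ha : IsUnit a) :
    Tendsto (fun x : ℝ => (∑ k ∈ Finset.Icc 1 ⌊x⌋₊, residueClass a k) / x) atTop
      (𝓝 (q.totient : ℝ)⁻¹) := by
  refine wienerIkehara (residueClass a) (residueClass_nonneg a) (C := Real.log 4 + 4)
    (fun n => ?_) _ (LFunctionResidueClassAux a) (continuousOn_LFunctionResidueClassAux a)
    fun s hs => ?_
  · have h1 := Chebyshev.psi_le_const_mul_self (x := n) (Nat.cast_nonneg n)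
    rw [psi_eq_Icc_one, Nat.floor_natCast] at h1
    exact (Finset.sum_le_sum fun k _ => residueClass_le a k).trans h1
  · rw [eqOn_LFunctionResidueClassAux ha hs]
    push_cast
    rfl

/-- Prime number theorem for `ψ`. -/
theorem psi_tendsto : Tendsto (fun x : ℝ => Chebyshev.psi x / x) atTop (𝓝 1) := by
  have h := psiAP_tendsto (q := 1) (a := 1) isUnit_one
  simp only [Nat.totient_one, Nat.cast_one, inv_one] at h
  refine h.congr fun x => ?_
  rw [psi_eq_Icc_one]
  congr 1
  refine Finset.sum_congr rfl fun k _ => ?_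
  rw [residueClass, Set.indicator_of_mem]
  exact (Subsingleton.elim _ _ : (k : ZMod 1) = 1)

theorem psi_sub_theta_tendsto :
    Tendsto (fun x : ℝ => (Chebyshev.psi x - Chebyshev.theta x) / x) atTop (𝓝 0) := by
  obtain ⟨C, hC⟩ := Chebyshev.psi_sub_theta_le_mul_sqrt
  have h1 : Tendsto (fun x : ℝ => C * (Real.sqrt x)⁻¹) atTop (𝓝 0) := by
    simpa using (Real.tendsto_sqrt_atTop.inv_tendsto_atTop).const_mul C
  refine squeeze_zero' ?_ ?_ h1
  · filter_upwards [eventually_gt_atTop 0] with x hx
    exact div_nonneg (by linarith [Chebyshev.theta_le_psi x]) hx.le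
  · filter_upwards [eventually_gt_atTop 0] with x hx
    rw [div_le_iff₀ hx]
    refine (hC x).trans (le_of_eq ?_)
    have hs : 0 < Real.sqrt x := Real.sqrt_pos.2 hx
    field_simp
    rw [Real.sq_sqrt hx.le]

/-- **Prime number theorem** for `θ`. -/
theorem theta_tendsto : Filter.Tendsto (fun x : ℝ => Chebyshev.theta x / x) Filter.atTop
    (nhds 1) := by
  have h := psi_tendsto.sub psi_sub_theta_tendsto
  simp only [sub_zero] at h
  refine h.congr fun x => ?_
  ring

/-- Prime number theorem in arithmetic progressions, `θ` form. -/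
theorem thetaAP_tendsto {q : ℕ} [NeZero q] {a : ZMod q} (ha : IsUnit a) :
    Tendsto (fun x : ℝ => (∑ p ∈ (Finset.Icc 1 ⌊x⌋₊).filter
      (fun p : ℕ => p.Prime ∧ (p : ZMod q) = a), Real.log p) / x) atTop
      (𝓝 (q.totient : ℝ)⁻¹) := by
  have h1 := psiAP_tendsto ha
  have key : ∀ x : ℝ, 0 ≤ (∑ k ∈ Finset.Icc 1 ⌊x⌋₊, residueClass a k) -
      (∑ p ∈ (Finset.Icc 1 ⌊x⌋₊).filter (fun p : ℕ => p.Prime ∧ (p : ZMod q) = a), Real.log p) ∧
      (∑ k ∈ Finset.Icc 1 ⌊x⌋₊, residueClass a k) -
      (∑ p ∈ (Finset.Icc 1 ⌊x⌋₊).filter (fun p : ℕ => p.Prime ∧ (p : ZMod q) = a), Real.log p)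
        ≤ Chebyshev.psi x - Chebyshev.theta x := by
    intro x
    have e2 : Chebyshev.theta x = ∑ k ∈ Finset.Icc 1 ⌊x⌋₊, if k.Prime then Real.log k else 0 := by
      unfold Chebyshev.theta
      rw [Finset.sum_filter]
      rfl
    rw [psi_eq_Icc_one, e2, Finset.sum_filter, ← Finset.sum_sub_distrib, ← Finset.sum_sub_distrib]
    refine ⟨Finset.sum_nonneg fun k _ => ?_, Finset.sum_le_sum fun k _ => ?_⟩
    · by_cases hk : k.Prime ∧ (k : ZMod q) = a
      · rw [if_pos hk, residueClass, Set.indicator_of_mem (by exact hk.2),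
          vonMangoldt_apply_prime hk.1, sub_self]
      · rw [if_neg hk, sub_zero]; exact residueClass_nonneg a k
    · by_cases hp : k.Prime
      · by_cases hk : (k : ZMod q) = a
        · rw [if_pos ⟨hp, hk⟩, if_pos hp, residueClass, Set.indicator_of_mem (by exact hk)]
        · rw [if_neg (fun h => hk h.2), if_pos hp, residueClass,
            Set.indicator_of_notMem (by exact hk), vonMangoldt_apply_prime hp]
          simp
      · rw [if_neg (fun h => hp h.1), if_neg hp, sub_zero, sub_zero]
        exact residueClass_le a k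
  have h2 : Tendsto (fun x : ℝ => ((∑ k ∈ Finset.Icc 1 ⌊x⌋₊, residueClass a k) -
      (∑ p ∈ (Finset.Icc 1 ⌊x⌋₊).filter (fun p : ℕ => p.Prime ∧ (p : ZMod q) = a), Real.log p))
        / x) atTop (𝓝 0) := by
    refine squeeze_zero' ?_ ?_ psi_sub_theta_tendsto
    · filter_upwards [eventually_gt_atTop 0] with x hx
      exact div_nonneg (key x).1 hx.le
    · filter_upwards [eventually_gt_atTop 0] with x hx
      exact div_le_div_of_nonneg_right (key x).2 hx.le
  have h := h1.sub h2
  simp only [sub_zero] at h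
  refine h.congr fun x => ?_
  ring

end Crest.Agent.Lib.PNT
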